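import Vale.Agent.P122.Bdl.B1

open Vale.Agent.P122 MeasureTheory Set
open scoped ENNReal NNReal

/-- Let `E` be the extension operator of the truncated paraboloid `Σ` over the unit square, with its
surface measure.

1. For `p > 3` and `1/(2p) < s < 1`, `E` is bounded from `L^p([0,1]; H^s)` to `L^p(ℝ³)`: the
   diagonal restriction estimate holds in the full conjectured range for data with `s` derivatives
   in one variable and no regularity in the other.
2. For `p > 3` and `0 < s < 5/p - 3/2` this bound fails.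
3. Consequently the bound holds for all `p > 3` if and only if `s ≥ 1/6`.
4. For every `p > 3` the diagonal estimate holds for data of bounded variation in one variable
   (and arbitrary measurable in the other one). -/
theorem Vale.Agent.Results.P122.Anisotropic.result :
    (∀ p s : ℝ, 3 < p → 1 / (2 * p) < s → s < 1 → ExtensionBound p s) ∧
    (∀ p s : ℝ, 3 < p → 0 < s → s < 5 / p - 3 / 2 → ¬ ExtensionBound p s) ∧
    (∀ s : ℝ, 0 < s → s < 1 → ((∀ p : ℝ, 3 < p → ExtensionBound p s) ↔ 1 / 6 ≤ s)) ∧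
    (∀ p : ℝ, 3 < p → ∃ C : ℝ≥0, ∀ (f : ℝ × ℝ × ℝ → ℂ) (N : ℝ → ℝ≥0), Measurable f →
      (∀ a ∈ Icc (0:ℝ) 1, ∀ b ∈ Icc (0:ℝ) 1, ‖f (a, b, a ^ 2 + b ^ 2)‖ ≤ N a) →
      (∀ a ∈ Icc (0:ℝ) 1,
        eVariationOn (fun b => f (a, b, a ^ 2 + b ^ 2)) (Icc (0:ℝ) 1) ≤ N a) →
      eLpNorm (extension f) (ENNReal.ofReal p) volume
        ≤ C * (∫⁻ a in Icc (0:ℝ) 1, (N a : ℝ≥0∞) ^ p) ^ (1 / p)) := by
  refine ⟨fun p s h3 hs hs1 => extensionBound h3 hs hs1,
    fun p s h3 hs0 hs => not_extensionBound h3 hs0 hs, ?_, ?_⟩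
  · intro s hs0 hs1
    constructor
    · intro h
      by_contra hlt
      push Not at hlt
      obtain ⟨p, hp, hnot⟩ := sharp hs0 hlt
      exact hnot (h p hp)
    · intro h p hp
      refine extensionBound hp ?_ hs1
      have : 1 / (2 * p) < 1 / (2 * 3) := by
        apply one_div_lt_one_div_of_lt <;> linarith
      linarith
  · intro p hp
    have hp0 : 0 < p := by linarith
    obtain ⟨K, hK⟩ := extensionBound (p := p) (s := 1/4) hp (by
      have : 1 / (2 * p) < 1 / (2 * 3) := by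
        apply one_div_lt_one_div_of_lt <;> linarith
      linarith) (by norm_num)
    obtain ⟨D, hD⟩ := sobolevSq_bv (s := 1/4) (by norm_num) (by norm_num)
    refine ⟨K * D ^ (1/2 : ℝ), fun f N hf hN hV => ?_⟩
    refine (hK f hf).trans ?_
    have hslice : ∀ a ∈ Icc (0:ℝ) 1,
        sobolevSq (1/4) (slice f a) ≤ D * (N a : ℝ≥0∞) ^ 2 := by
      intro a ha
      refine hD (N a) (fun b => f (a, b, a ^ 2 + b ^ 2)) ?_ (hV a ha) (hN a ha)
      exact hf.comp (by fun_prop)
    have hint : ∫⁻ a in Icc (0:ℝ) 1, (sobolevSq (1/4) (slice f a)) ^ (p / 2)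
        ≤ (D : ℝ≥0∞) ^ (p / 2) * ∫⁻ a in Icc (0:ℝ) 1, (N a : ℝ≥0∞) ^ p := by
      rw [← lintegral_const_mul' _ _ (ENNReal.rpow_ne_top_of_nonneg (by positivity)
        ENNReal.coe_ne_top)]
      refine setLIntegral_mono' measurableSet_Icc fun a ha => ?_
      calc (sobolevSq (1/4) (slice f a)) ^ (p / 2)
          ≤ (D * (N a : ℝ≥0∞) ^ 2) ^ (p / 2) :=
            ENNReal.rpow_le_rpow (hslice a ha) (by positivity)
        _ = _ := by
            rw [ENNReal.mul_rpow_of_nonneg _ _ (by positivity), ← ENNReal.rpow_natCast,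
              ← ENNReal.rpow_mul]
            congr 2
            push_cast
            ring
    calc (K : ℝ≥0∞) * (∫⁻ a in Icc (0:ℝ) 1, (sobolevSq (1/4) (slice f a)) ^ (p / 2)) ^ (1 / p)
        ≤ K * ((D : ℝ≥0∞) ^ (p / 2) * ∫⁻ a in Icc (0:ℝ) 1, (N a : ℝ≥0∞) ^ p) ^ (1 / p) := by
          gcongr
      _ = _ := by
          rw [ENNReal.mul_rpow_of_nonneg _ _ (by positivity), ← ENNReal.rpow_mul, ← mul_assoc]
          congr 2
          rw [ENNReal.coe_mul, ENNReal.coe_rpow_of_nonneg _ (by norm_num)]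
          congr 2
          field_simp
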